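import Crest.Agent.X212.Wd38.Pt
import Crest.Agent.X212.Nm96.Defs

-- ▼ part X212/Wd38/Rs
section

/-!
# X212 / Wd38, part Rs (helper38): `Fm.RS` for a turn, good toric cells, twists on a pattern
-/

set_option autoImplicit false
noncomputable section

namespace Crest.Agent.X212.Wd38

open Crest.Agent.X212.Rod53 Crest.Agent.X212.Nm96 Finset

variable {Γ : Nm} {w : Shp Γ} {n : Wt} {κ : Γ.ι} {t : ℕ → ℤ} {v : ℕ → Z2} {m : ℕ → ℤ} {N : ℕ}

theorem sum_Ioc_last {M : Type*} [AddCommMonoid M] (G : ℤ → M) {a b : ℤ} (h : a < b) :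
    ∑ c ∈ Ioc a b, G c = ∑ c ∈ Ioc a (b - 1), G c + G b := by
  rw [show Ioc a b = insert b (Ioc a (b - 1)) from Finset.ext fun c => by
    simp only [mem_insert, mem_Ioc]; omega, sum_insert (by simp), add_comm]

/-- the zero class -/
def Wt.o : Wt := ⟨fun _ => 0, fun _ => 0, 0, 0⟩

theorem lb_self (u : Z2) (x y x' y' : ℤ) : lb u u x y x' y' = 0 := by simp [lb, dt_self]

namespace Tn

variable (h : Tn w n κ t v m N)
include h

theorem cls {a : ℕ → ℤ} (a0 : a 0 = 0) (aN : a N = 0) : Tn w Wt.o κ t v a N :=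
  ⟨h.mono, h.lo, h.hi, fun j x y => ⟨(h.rd j x y).1, a0.symm, a0.symm⟩, h.uni, h.vN, by rw [a0, aN, neg_zero]⟩

theorem tok (ok : w.OK) {a : ℕ → ℤ} (a0 : a 0 = 0) (aN : a N = 0) : TOK (w.put κ t v N) (Wt.o.put t a N) :=
  have k := ((h.cls a0 aN).ok (Λ := ⟨fun _ _ _ => True, 0⟩) ok ⟨rfl, rfl, fun _ _ _ _ _ => rfl,
    fun _ _ _ _ _ => trivial, fun _ _ _ _ => rfl, fun _ _ _ _ => rfl⟩).2
  ⟨k.rod, k.eq, k.neg⟩

/-- sums over the whole turn -/
theorem sum {M : Type*} [AddCommMonoid M] {n' : Wt} {m' : ℕ → ℤ} (h' : Tn w n' κ t v m' N)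
    (φ : Z2 → Z2 → ℤ → ℤ → ℤ → ℤ → M) (hφ : ∀ u u' x y x' y', dt u u' = 0 → φ u u' x y x' y' = 0) :
    ∑ c ∈ Ioc (t 0) (t (N + 1)), φ ((w.put κ t v N).lf c) ((w.put κ t v N).rt c) ((n.put t m N).nr (c - 1))
      ((n.put t m N).nl c) ((n'.put t m' N).nr (c - 1)) ((n'.put t m' N).nl c) =
      ∑ k ∈ Ioc 0 N, φ (v (k - 1)) (v k) (m (k - 1)) (m k) (m' (k - 1)) (m' k) := by
  have a := h.pt.lt N
  rw [sum_Ioc_last _ h.lt, h.pt.sum h'.pt φ (fun u _ _ _ _ => hφ _ _ _ _ _ _ (dt_self u)) le_rfl le_rfl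
    (h.pt.lt 0) (by omega) (by omega), hφ, add_zero]
  rw [h.pt.lf le_rfl a le_rfl, Shp.rt, (h.rdN _ le_rfl le_rfl).1, h.vN]
  exact dt_neg_self _

theorem sup {ι : Type} {ε : ι → Wt} {i : ι} {a : ℕ → ℤ} (e : ε i = Wt.o.put t a N) {b x y : ℤ} {k0 k1 : ℕ}
    (hx : x < t (k0 + 1)) (hy : t k1 ≤ y) (s : ∀ k ≤ N, k ≤ k0 ∨ k1 ≤ k → a k + b * dt (v 0) (v k) = 0) :
    Sup x y (cmb {i} (fun _ => 1) ε b (fib (w.put κ t v N) (t 0) (t (N + 1)))) := fun j q => by
  simp only [cmb, sum_singleton, e, Wt.put, fib, one_mul]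
  by_cases c : t 0 < j ∧ j < t (N + 1)
  · obtain ⟨p, r⟩ := h.pt.rod c.1.le c.2
    have i1 := ix_le h.mono c.1.le
    have i2 := lt_ix h.mono j
    simp only [if_pos c]
    rw [r, h.pt.s (Nat.zero_le _) le_rfl (h.pt.lt 0)]
    have := s _ p (q.imp (fun q => Nat.lt_succ_iff.1 (h.mono.lt_iff_lt.1 (i1.trans_lt (q.trans_lt hx))))
      fun q => Nat.lt_succ_iff.1 (h.mono.lt_iff_lt.1 ((hy.trans q).trans_lt i2)))
    exact ⟨this, this⟩
  · simp [if_neg c, Wt.o]

/-- **`RS` for a turn** -/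
theorem rs (ok : w.OK) (fz : Finset Bs) {M : ℕ} (hN : N = M + 2) (A : Fin M → ℕ → ℤ) (i0 : Fin M)
    (A0 : ∀ i, A i 0 = 0 ∧ A i N = 0)
    (gr : ∀ i j, ∑ k ∈ Ioc 0 N, lb (v (k - 1)) (v k) (A i (k - 1)) (A i k) (A j (k - 1)) (A j k) =
      if i = j then -1 else 0)
    (dg : ∀ i, |∑ k ∈ Ioc 0 N, lb (v (k - 1)) (v k) (m (k - 1)) (m k) (A i (k - 1)) (A i k)| =
      if i = i0 then 0 else 1)
    {x y x' y' b b' : ℤ} {k0 k1 k0' k1' : ℕ} (x0 : t 0 < x) (hx : x < t (k0 + 1)) (hy : t k1 ≤ y)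
    (yN : y < t (N + 1)) (x0' : t 0 < x') (hx' : x' < t (k0' + 1)) (hy' : t k1' ≤ y') (yN' : y' < t (N + 1))
    (s : ∀ k ≤ N, k ≤ k0 ∨ k1 ≤ k → A i0 k + b * dt (v 0) (v k) = 0)
    (s' : ∀ k ≤ N, k ≤ k0' ∨ k1' ≤ k → A i0 k + b' * dt (v 0) (v k) = 0) (o : Odd (b - b')) :
    Fm.RS ⟨w.put κ t v N, fz, ∅⟩ (n.put t m N) (t 0) (t (N + 1)) (.sA x y) (.sA x' y') := by
  have c := fun i => h.cls (A0 i).1 (A0 i).2
  refine ⟨M, fun i => Wt.o.put t (A i) N, {i0}, fun _ => 1, b, b', ?_, fun i => ⟨h.tok ok (A0 i).1 (A0 i).2,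
    fun j q => ((put_ag (w := w) (κ := κ) (v := v)) Wt.o j q).2⟩, fun i j => ?_, fun i => ?_, by simp, by simp,
    by simp, by simp, trivial, trivial, x0, yN, trivial, trivial, x0', yN', h.sup rfl hx hy s,
    h.sup rfl hx' hy' s', o⟩
  · rw [card_filter, h.sum h (fun u u' _ _ _ _ => if dt u u' ≠ 0 then 1 else 0) fun _ _ _ _ _ _ e => by simp [e],
      sum_congr rfl fun k hk => if_pos ?_]
    · simp [hN]
    · rw [mem_Ioc] at hk
      have := h.uni (k - 1) (by omega)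
      rw [show k - 1 + 1 = k by omega, Uni] at this
      omega
  · rw [← gr]
    exact (c i).sum (c j) lb fun _ _ _ _ _ _ e => by simp [lb, e]
  · simp only [mem_singleton]
    rw [← dg]
    exact congrArg _ (h.sum (c i) lb fun _ _ _ _ _ _ e => by simp [lb, e])

end Tn

/-! ### toric cells -/

variable {P : Pm Γ} {F : Fm Γ} {σ : Finset Wl}

theorem inj_b (h : ∀ a ∈ σ, a.tw = []) : Set.InjOn Wl.b σ := fun a ha b hb e => by
  cases a; cases b
  have := h _ ha; have := h _ hb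
  simp_all

theorem gc_tor (ok : F.OK P) (lok : F.LOK P n) (h : ∀ a ∈ σ, a.tw = []) (T : F.Tor P n (σ.image Wl.b)) :
    F.GC P n σ :=
  ⟨ok, lok, inj_b h, fun a ha => ⟨(T.ok _ (mem_image_of_mem _ ha)).2, .inr (h a ha)⟩, [], trivial, h, T⟩

theorem image_b_erase (h : ∀ a ∈ σ, a.tw = []) {a : Wl} (ha : a ∈ σ) :
    (σ.erase a).image Wl.b = (σ.image Wl.b).erase a.b := by
  ext b
  simp only [mem_image, mem_erase]
  exact ⟨fun ⟨c, k, e⟩ => ⟨fun q => k.1 (inj_b h k.2 ha (e.trans q)), c, k.2, e⟩,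
    fun ⟨q, c, k, e⟩ => ⟨c, ⟨fun r => q (r ▸ e.symm), k⟩, e⟩⟩

theorem gc1_tor (ok : F.OK P) (lok : F.LOK P n) (h : ∀ a ∈ σ, a.tw = []) (T : F.Tor P n (σ.image Wl.b))
    (T' : ∀ a ∈ σ.image Wl.b, F.Tor P n ((σ.image Wl.b).erase a)) : F.GC1 P n σ :=
  ⟨gc_tor ok lok h T, fun _ ha => gc_tor ok lok (fun b hb => h b (mem_of_mem_erase hb))
    (image_b_erase h ha ▸ T' _ (mem_image_of_mem _ ha))⟩

/-! ### the twist in a sphere of square `-2` -/

/-- the twist in the sphere of the rod `k + 1` -/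
def twk (t : ℕ → ℤ) (v : ℕ → Z2) (k : ℕ) : Tw := ⟨t (k + 1), t (k + 2) - 1, v k, v (k + 1), 2, 1⟩

theorem Pt.twk_ok (h : Pt w n κ t v m N) {k : ℕ} (hk : k + 2 ≤ N) (u : Uni (v k) (v (k + 1)))
    (e : v (k + 2) = -v k + (2 : ℤ) • v (k + 1)) : (twk t v k).OK w := by
  have a := h.lt k
  have b : t (k + 1) < t (k + 2) := h.lt (k + 1)
  have c := h.lt (k + 2)
  have d := h.mono.monotone k.zero_le
  have f := h.mono.monotone (show k + 2 + 1 ≤ N + 1 by omega)
  refine ⟨h.rg (by simp only [twk]; omega) (by simp only [twk]; omega) (by simp only [twk]; omega),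
    by simp only [twk]; omega, u, rfl, .inl (h.lf (by omega) a le_rfl),
    fun j x y => .inl (h.rt (by omega) x (Int.lt_of_le_sub_one y)), .inl ?_⟩
  simp only [twk, sub_add_cancel]
  exact (h.rt hk le_rfl c).trans e

theorem Pt.twk_act (h : Pt w n κ t v m N) {k : ℕ} (hk : k + 2 ≤ N)
    (e : v (k + 2) = -v k + (2 : ℤ) • v (k + 1)) :
    Pt w ((twk t v k).act w n) κ t v (Function.update m (k + 1) (m k + m (k + 2) - m (k + 1))) N := by
  have a := h.lt k
  have b : t (k + 1) < t (k + 2) := h.lt (k + 1)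
  have c := h.lt (k + 2)
  refine ⟨h.mono, h.lo, h.hi, fun i hi j x y => ⟨(h.rd i hi j x y).1, ?_⟩⟩
  simp only [Tw.act, twk, sub_add_cancel, Tw.sg]
  by_cases q : i = k + 1
  · subst q
    have z : t (k + 1) ≤ j ∧ j ≤ t (k + 2) - 1 := ⟨x, y⟩
    simp only [if_pos z, h.lf (show k ≤ N by omega) a le_rfl, h.rt hi x (Int.lt_of_le_sub_one y),
      (h.rt hk le_rfl c).trans e, h.nr (k := k) (j := t (k + 1) - 1) (by omega) (by omega) (by omega),
      h.nl hk le_rfl c, h.nl hi x (Int.lt_of_le_sub_one y), h.nr hi x (Int.lt_of_le_sub_one y)]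
    simp
  · have : ¬(t (k + 1) ≤ j ∧ j ≤ t (k + 2) - 1) := fun r =>
      q ((ix_eq h.mono x (by omega)).symm.trans (ix_eq h.mono r.1 (Int.lt_of_le_sub_one r.2)))
    rw [if_neg this, if_neg this, Function.update_of_ne q]
    exact (h.rd i hi j x y).2

theorem act_ag (τ : Tw) : Aq w w n (τ.act w n) fun j => j < τ.x ∨ τ.y < j := fun j q =>
  ⟨rfl, if_neg (by omega), if_neg (by omega)⟩

end Crest.Agent.X212.Wd38
end
end

-- ▼ part X212/Nm96/Win
section

/-!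
# Row 212, layer G (helper96): window certificates for `NumC`

`Fm.Win z δ n σ s t v v'`: the walls of `σ` between the slots `s` and `t` are certified, a piece that comes in
through `s` has to bring the reserve `v`, a piece that goes out through `t` takes the reserve `v'` along
(first component: irreducible points, second component: abelian points).
-/

set_option autoImplicit false
noncomputable section

namespace Crest.Agent.X212.Nm96

open Crest.Agent.X212.Rod53 Crest.Agent.X212.Wd38 Finset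

variable {Γ : Nm} {a b : Bs} {c s t u : ℤ} {B B₁ U U₁ σ : Finset Bs} {η : Bs → Bool} {π : Prop}

theorem side_arc (h : a.arc) : a.side c = true ↔ ¬(a.lo < c ∧ c ≤ a.hi) := by
  cases a <;> simp_all [Bs.arc, Bs.side, Bs.lo, Bs.hi] <;> omega

theorem side_sl (h : ¬a.arc) : (a.side c = true ↔ a.lo < c) ∧ a.hi = a.lo := by
  cases a <;> simp_all [Bs.arc, Bs.side, Bs.lo, Bs.hi]

theorem side_of_le {c' : ℤ} (h : c ≤ a.lo) (h' : c' ≤ a.lo) : a.side c = a.side c' := by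
  rw [Bool.eq_iff_iff]
  by_cases k : a.arc
  · rw [side_arc k, side_arc k]; omega
  · rw [(side_sl k).1, (side_sl k).1]; omega

theorem side_of_gt (h : a.hi < c) : a.side c = true := by
  by_cases k : a.arc
  · rw [side_arc k]; omega
  · rw [(side_sl k).1, ← (side_sl (c := c) k).2]; exact h

/-- the walls with first slot in `[s, t)` -/
def wn (s t : ℤ) (σ : Finset Bs) : Finset Bs := {a ∈ σ | s ≤ a.lo ∧ a.lo < t}

theorem mem_wn : a ∈ wn s t σ ↔ a ∈ σ ∧ s ≤ a.lo ∧ a.lo < t := mem_filter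

/-- a sum over the adjacent walls of `U` in a window -/
def asum (U B : Finset Bs) (η : Bs → Bool) (s t : ℤ) (f : Bs → ℝ) : ℝ :=
  ∑ a ∈ U with s ≤ a.lo ∧ a.lo < t ∧ Adj B η a, f a

theorem sum_cut {α : Type} (S : Finset α) (x : α → ℤ) (q : α → Prop) [DecidablePred q] (f : α → ℝ)
    (h : s ≤ t) (h' : t ≤ u) : ∑ a ∈ S with s ≤ x a ∧ x a < u ∧ q a, f a =
      ∑ a ∈ S with s ≤ x a ∧ x a < t ∧ q a, f a + ∑ a ∈ S with t ≤ x a ∧ x a < u ∧ q a, f a := by
  simp only [sum_filter, ← sum_add_distrib]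
  refine sum_congr rfl fun a _ => ?_
  by_cases k : q a
  · simp only [k, and_true]; split_ifs <;> first | omega | simp
  · simp [k]

theorem asum_cut (f : Bs → ℝ) (h : s ≤ t) (h' : t ≤ u) :
    asum U B η s u f = asum U B η s t f + asum U B η t u f := sum_cut U Bs.lo _ f h h'

/-- the virtual vertex of an arc -/
def vv (w : Shp Γ) (φ : Z2 → Z2 → ℤ → ℤ → ℝ) (n : Wt) (a : Bs) : ℝ :=
  φ (w.s a.lo).r.2 (w.s a.hi).l.2 (n.nr a.lo) (n.nl a.hi)

/-- the vertex at an integer point -/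
def vx (w : Shp Γ) (φ : Z2 → Z2 → ℤ → ℤ → ℝ) (n : Wt) (c : ℤ) : ℝ :=
  φ (w.lf c) (w.rt c) (n.nr (c - 1)) (n.nl c)

variable {w : Shp Γ} {φ : Z2 → Z2 → ℤ → ℤ → ℝ} {n n' : Wt}

theorem ssum_eq : ssum w B η s t φ n =
    ∑ c ∈ Ioc w.l w.r with s + 1 ≤ c ∧ c < t + 1 ∧ InV B η c, vx w φ n c +
      asum B B η s t fun a => if a.arc then (if η a then 1 else -1) * vv w φ n a else 0 := by
  rw [ssum, asum, ← sum_filter, filter_filter]
  congr 1
  · exact sum_congr (filter_congr fun c _ => by rw [Int.lt_add_one_iff, Int.add_one_le_iff]) fun _ _ => rfl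
  · exact sum_congr (filter_congr fun c _ => by tauto) fun _ _ => rfl

theorem ssum_cut (h : s ≤ t) (h' : t ≤ u) :
    ssum w B η s u φ n = ssum w B η s t φ n + ssum w B η t u φ n := by
  simp only [ssum_eq]
  rw [asum_cut _ h h', sum_cut (t := t + 1) _ (fun c => c) _ _ (by omega) (by omega)]
  ring

theorem ssum_self : ssum w B η s s φ n = 0 := by
  have := ssum_cut (w := w) (B := B) (η := η) (φ := φ) (n := n) (le_refl s) le_rfl
  linarith

/-- on the window only the walls `B₁` matter, if the piece is there at all -/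
structure Rs (B B₁ : Finset Bs) (η : Bs → Bool) (s t : ℤ) (π : Prop) : Prop where
  pt : ∀ c, s < c → c ≤ t → (InV B η c ↔ InV B₁ η c ∧ π)
  adj : ∀ a : Bs, s ≤ a.lo → a.lo < t → (Adj B η a ↔ Adj B₁ η a ∧ π)
  mem : ∀ a : Bs, s ≤ a.lo → a.lo < t → (a ∈ B ↔ a ∈ B₁)

theorem Rs.mono {s' t' : ℤ} (h : Rs B B₁ η s t π) (h1 : s ≤ s') (h2 : t' ≤ t) : Rs B B₁ η s' t' π :=
  ⟨fun c a b => h.pt c (by omega) (by omega), fun c a b => h.adj c (by omega) (by omega),
    fun c a b => h.mem c (by omega) (by omega)⟩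

theorem Rs.asum [Decidable π] (h : Rs B B₁ η s t π) {f f₁ : Bs → ℝ}
    (hU : ∀ a : Bs, s ≤ a.lo → a.lo < t → (a ∈ U ↔ a ∈ U₁))
    (hf : ∀ a ∈ U₁, s ≤ a.lo → a.lo < t → f a = f₁ a) :
    asum U B η s t f = if π then asum U₁ B₁ η s t f₁ else 0 := by
  split_ifs with k
  · refine sum_congr (Finset.ext fun a => ?_) fun a ha => ?_
    · simp only [mem_filter]
      have := hU a; have := h.adj a; tauto
    · have := mem_filter.1 ha
      exact hf a this.1 this.2.1 this.2.2.1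
  · refine sum_eq_zero fun a ha => ?_
    have := mem_filter.1 ha
    exact (k ((h.adj a this.2.1 this.2.2.1).1 this.2.2.2).2).elim

theorem Rs.ssum [Decidable π] (h : Rs B B₁ η s t π) :
    ssum w B η s t φ n = if π then ssum w B₁ η s t φ n else 0 := by
  simp only [ssum_eq]
  rw [h.asum h.mem fun _ _ _ _ => rfl]
  split_ifs with k
  · congr 1
    refine sum_congr (filter_congr fun c _ => ?_) fun _ _ => rfl
    have := h.pt c
    simp only [Int.lt_add_one_iff, Int.add_one_le_iff]; tauto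
  · rw [add_zero]
    refine sum_eq_zero fun c hc => ?_
    have := (mem_filter.1 hc).2
    exact (k ((h.pt c (by omega) (by omega)).1 this.2.2).2).elim

/-- the wall is away from the slot `t` -/
def Sp (t : ℤ) (a : Bs) : Prop := a.lo ≤ a.hi ∧ (a.hi < t ∨ t < a.lo)

theorem inV_left (hB : B ⊆ wn s u B) (h : ∀ a ∈ B, Sp t a) (hc : c ≤ t + 1) (E : Finset Bs) :
    InV (B \ E) η c ↔ InV (wn s t B \ E) η c ∧ InV (wn t u B \ E) η (t + 1) := by
  simp only [InV, mem_sdiff, mem_wn]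
  refine ⟨fun k => ⟨fun a ha => k a ⟨ha.1.1, ha.2⟩, fun a ha => ?_⟩, fun k a ha => ?_⟩
  · have := h a ha.1.1
    rw [← k a ⟨ha.1.1, ha.2⟩]; unfold Sp at this
    exact side_of_le (by omega) (by omega)
  · have := h a ha.1; have := mem_wn.1 (hB ha.1); unfold Sp at *
    by_cases e : a.lo < t
    · exact k.1 a ⟨⟨ha.1, by omega, e⟩, ha.2⟩
    · rw [← k.2 a ⟨⟨ha.1, by omega, by omega⟩, ha.2⟩]
      exact side_of_le (by omega) (by omega)

theorem inV_right (hB : B ⊆ wn s u B) (h : ∀ a ∈ B, Sp t a) (hc : t ≤ c) (E : Finset Bs) :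
    InV (B \ E) η c ↔ InV (wn t u B \ E) η c ∧ InV (wn s t B \ E) η t := by
  simp only [InV, mem_sdiff, mem_wn]
  refine ⟨fun k => ⟨fun a ha => k a ⟨ha.1.1, ha.2⟩, fun a ha => ?_⟩, fun k a ha => ?_⟩
  · have := h a ha.1.1
    rw [← k a ⟨ha.1.1, ha.2⟩]; unfold Sp at this
    rw [side_of_gt (by omega), side_of_gt (by omega)]
  · have := h a ha.1; have := mem_wn.1 (hB ha.1); unfold Sp at *
    by_cases e : a.lo < t
    · rw [← k.2 a ⟨⟨ha.1, by omega, e⟩, ha.2⟩, side_of_gt (by omega), side_of_gt (by omega)]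
    · exact k.1 a ⟨⟨ha.1, by omega, by omega⟩, ha.2⟩

theorem sdiff_out (h : a.lo < t ∨ u ≤ a.lo) : wn t u B \ {a} = wn t u B :=
  sdiff_eq_self_of_disjoint (disjoint_singleton_right.2 fun k => by have := mem_wn.1 k; omega)

theorem rs_left (hB : B ⊆ wn s u B) (h : ∀ a ∈ B, Sp t a) :
    Rs B (wn s t B) η s t (InV (wn t u B) η (t + 1)) :=
  ⟨fun c _ h2 => by simpa using inV_left hB h (c := c) (by omega) ∅, fun a h1 h2 => by
    simp only [Adj, erase_eq]
    rw [inV_left hB h (by omega), sdiff_out (.inl h2)], fun a h1 h2 => by simp [mem_wn, h1, h2]⟩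

theorem rs_right (hB : B ⊆ wn s u B) (h : ∀ a ∈ B, Sp t a) :
    Rs B (wn t u B) η t u (InV (wn s t B) η t) :=
  ⟨fun c _ h2 => by simpa using inV_right hB h (c := c) (by omega) ∅, fun a h1 h2 => by
    simp only [Adj, erase_eq]
    rw [inV_right hB h (by omega), sdiff_out (.inr h1)], fun a h1 h2 => by simp [mem_wn, h1, h2]⟩

/-! ### the certificate -/

/-- irreducible points -/
def al (u v : Z2) (x y : ℤ) : ℝ := -3 / 4 * lp u v x y + (lq u v x y - lg u v x y) / 2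

/-- abelian points -/
def om (u v : Z2) (x y : ℤ) : ℝ := -3 * lp u v x y + (lq u v x y - lg u v x y) / 2

/-- the size of the charges -/
def Sz (a : Bs) (c : Bool → ℤ) : Prop :=
  if a.arc then c false ≤ 4 ∧ c true ≤ -2 else c false ≤ 1 ∧ c true ≤ 1

/-- `TOK` and `Par` on a window -/
structure Tp (w : Shp Γ) (n n' : Wt) (s t : ℤ) : Prop where
  rod : ∀ j τ, s < j → j < t → w.l < j → j < w.r → w.s j = .rod τ → n'.nl j = n'.nr j
  eq : ∀ j, s < j → j ≤ t → w.l < j → j ≤ w.r → w.lf j = w.rt j → n'.nr (j - 1) = n'.nl j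
  neg : ∀ j, s < j → j ≤ t → w.l < j → j ≤ w.r → w.lf j = -w.rt j → n'.nr (j - 1) = -n'.nl j
  l : ∀ j, s < j → j ≤ t → w.l < j → j ≤ w.r →
    Even (n'.nl j - n.nl j - (w.s j).l.2.1 * (w.s j).l.2.2)
  r : ∀ j, s ≤ j → j < t → w.l ≤ j → j < w.r →
    Even (n'.nr j - n.nr j - (w.s j).r.2.1 * (w.s j).r.2.2)

theorem Tp.mono {s' t' : ℤ} (h : Tp w n n' s t) (h1 : s ≤ s') (h2 : t' ≤ t) : Tp w n n' s' t' :=
  ⟨fun j τ a b => h.rod j τ (by omega) (by omega), fun j a b => h.eq j (by omega) (by omega),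
    fun j a b => h.neg j (by omega) (by omega), fun j a b => h.l j (by omega) (by omega),
    fun j a b => h.r j (by omega) (by omega)⟩

/-- the change of the reserve -/
def dp (B : Finset Bs) (η : Bs → Bool) (s t : ℤ) (x x' : ℝ) : ℝ :=
  (if InV B η t then x' else 0) - if InV B η (s + 1) then x else 0

/-- the end of the window for the square of an abelian class -/
def ee (z : ℤ) (B : Finset Bs) (η : Bs → Bool) (t : ℤ) : ℤ := if z < t ∧ InV B η t then z else t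

namespace Fm

variable (F : Fm Γ)

/-- sites, parameters, cuts, entry and charges -/
def Ev (n : Wt) (σ B : Finset Bs) (η : Bs → Bool) (ch : Bs → Bool → ℤ) (φ : Z2 → Z2 → ℤ → ℤ → ℝ)
    (μ e : ℝ) (s t : ℤ) : ℝ :=
  ssum F.w B η s t φ n + asum (σ \ B) B η s t (fun _ => μ) +
    asum F.ls B η s t (fun l => if ∀ a ∈ B, a.Far l then -2 * μ else 0) +
    asum B B η s t fun a => (if a.side (a.lo + 1) = η a then e else 0) - ch a (η a)

/-- `AbC.loc` on a window -/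
def Loc (n' : Wt) (B : Finset Bs) (η : Bs → Bool) (s t : ℤ) : Prop :=
  ∀ s' t', s ≤ s' → t' ≤ t → s' = F.w.l - 1 ∨ F.Cut s' → (t' = F.w.r + 1 ∧ ¬F.Lst B η) ∨ F.Cut t' →
    ssum F.w B η s' t' lq n' ≤ 0

/-- `Hg` on a window -/
def HgW (n : Wt) (B : Finset Bs) (η : Bs → Bool) (s t : ℤ) : Prop :=
  ∃ y, s ≤ y ∧ y ≤ t ∧ .yS y ∈ F.fz ∧ (F.w.s y).r.2.2 = 0 ∧ Odd (n.nr y) ∧ InV B η (y + 1)

/-- the inequalities for one piece -/
def Pc (z : ℤ) (δ : ℝ) (n : Wt) (σ B : Finset Bs) (ch : Bs → Bool → ℤ) (s t : ℤ) (v v' : ℝ × ℝ)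
    (η : Bs → Bool) : Prop :=
  dp B η s t v.1 v'.1 ≤ F.Ev n σ B η ch al (1 / 4) ((13 - δ) / 4) s t ∧
    (F.HgW n B η s t ∨ ∀ n', Tp F.w n n' s t → F.Loc n' B η s t → dp B η s t v.2 v'.2 ≤
      -3 / 2 * ssum F.w B η s (ee z B η t) lq n' + F.Ev n σ B η ch om 1 (1 - δ) s t)

/-- **certified windows** -/
def Win (z : ℤ) (δ : ℝ) (n : Wt) (σ : Finset Bs) (s t : ℤ) (v v' : ℝ × ℝ) : Prop :=
  ∀ B ⊆ wn s t σ, (∀ a ∈ B, a.pin) → ∃ ch : Bs → Bool → ℤ,
    2 * (#{l ∈ wn s t F.ls | ∃ a ∈ B, ¬a.Far l} : ℤ) ≤ ∑ a ∈ B, (ch a true + ch a false) ∧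
    (∀ a ∈ B, Sz a (ch a)) ∧ ∀ η, F.Pc z δ n σ B ch s t v v' η

variable {F} {z : ℤ} {δ μ e : ℝ} {ch ch₁ : Bs → Bool → ℤ} {v v' v'' : ℝ × ℝ}

theorem Ev_cut (h : s ≤ t) (h' : t ≤ u) :
    F.Ev n σ B η ch φ μ e s u = F.Ev n σ B η ch φ μ e s t + F.Ev n σ B η ch φ μ e t u := by
  simp only [Ev, ssum_cut h h', asum_cut _ h h']; ring

theorem Ev_rs [Decidable π] (h : Rs B B₁ η s t π) (hc : ∀ a ∈ B₁, ch a = ch₁ a)
    (hl : ∀ l ∈ F.ls, s ≤ l.lo → l.lo < t → ((∀ a ∈ B, a.Far l) ↔ ∀ a ∈ B₁, a.Far l)) :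
    F.Ev n σ B η ch φ μ e s t = if π then F.Ev n σ B₁ η ch₁ φ μ e s t else 0 := by
  rw [Ev, h.ssum, h.asum (U₁ := σ \ B₁) (fun a h1 h2 => by simp [h.mem a h1 h2]) fun _ _ _ _ => rfl,
    h.asum (fun _ _ _ => Iff.rfl) fun l k h1 h2 => if_congr (hl l k h1 h2) rfl rfl,
    h.asum h.mem fun a k _ _ => by rw [hc a k]]
  split_ifs
  · rfl
  · simp

theorem Win.mono {x x' : ℝ × ℝ} (h : F.Win z δ n σ s t v v') (h1 : v ≤ x) (h2 : x' ≤ v') :
    F.Win z δ n σ s t x x' := fun B hB hp => by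
  obtain ⟨ch, k1, k2, k3⟩ := h B hB hp
  have e : ∀ {a a' b b' : ℝ} η, a ≤ b → b' ≤ a' → dp B η s t b b' ≤ dp B η s t a a' :=
    fun η p q => by unfold dp; split_ifs <;> linarith
  exact ⟨ch, k1, k2, fun η => ⟨(e η h1.1 h2.1).trans (k3 η).1,
    (k3 η).2.imp_right fun k n' a b => (e η h1.2 h2.2).trans (k n' a b)⟩⟩

/-- **composition** -/
theorem Win.trans (h : F.Win z δ n σ s t v v') (h' : F.Win z δ n σ t u v' v'') (h1 : s ≤ t)
    (h2 : t ≤ u) (hz : t ≤ z) (hr : t ≤ F.w.r) (hσ : ∀ a ∈ wn s u σ, Sp t a)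
    (hl : ∀ l ∈ wn s u F.ls, Sp t l) : F.Win z δ n σ s u v v'' := fun B hB hp => by
  have b0 : B ⊆ wn s u B := fun a k => mem_wn.2 ⟨k, (mem_wn.1 (hB k)).2⟩
  have b1 : ∀ a ∈ B, Sp t a := fun a k => hσ a (hB k)
  have sub : ∀ x y, wn x y B ⊆ wn x y σ := fun x y a k =>
    mem_wn.2 ⟨(mem_wn.1 (hB (mem_wn.1 k).1)).1, (mem_wn.1 k).2⟩
  obtain ⟨c1, p1, q1, r1⟩ := h _ (sub s t) fun a k => hp a (mem_wn.1 k).1
  obtain ⟨c2, p2, q2, r2⟩ := h' _ (sub t u) fun a k => hp a (mem_wn.1 k).1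
  set ch : Bs → Bool → ℤ := fun a => if a.lo < t then c1 a else c2 a with hch
  have e1 : ∀ a ∈ wn s t B, ch a = c1 a := fun a k => if_pos (mem_wn.1 k).2.2
  have e2 : ∀ a ∈ wn t u B, ch a = c2 a := fun a k => if_neg (not_lt.2 (mem_wn.1 k).2.1)
  have un : ∀ X, wn s u X = wn s t X ∪ wn t u X := fun X => Finset.ext fun a => by
    simp only [mem_union, mem_wn, ← and_or_left]; exact and_congr_right fun _ => by omega
  have dj : ∀ X, Disjoint (wn s t X) (wn t u X) := fun X => disjoint_left.2 fun a k k' => by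
    have := mem_wn.1 k; have := mem_wn.1 k'; omega
  have f1 : ∀ l ∈ F.ls, s ≤ l.lo → l.lo < t → ((∀ a ∈ B, a.Far l) ↔ ∀ a ∈ wn s t B, a.Far l) :=
    fun l k x y => ⟨fun g a ha => g a (mem_wn.1 ha).1, fun g a ha => by
      have := hl l (mem_wn.2 ⟨k, x, by omega⟩); have := b1 a ha; have := mem_wn.1 (b0 ha)
      unfold Sp at *
      by_cases i : a.lo < t
      exacts [g a (mem_wn.2 ⟨ha, by omega, i⟩), .inr (.inl (by omega))]⟩
  have f2 : ∀ l ∈ F.ls, t ≤ l.lo → l.lo < u → ((∀ a ∈ B, a.Far l) ↔ ∀ a ∈ wn t u B, a.Far l) :=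
    fun l k x y => ⟨fun g a ha => g a (mem_wn.1 ha).1, fun g a ha => by
      have := hl l (mem_wn.2 ⟨k, by omega, y⟩); have := b1 a ha; have := mem_wn.1 (b0 ha)
      unfold Sp at *
      by_cases i : a.lo < t
      exacts [.inl (by omega), g a (mem_wn.2 ⟨ha, by omega, by omega⟩)]⟩
  have eB : B = wn s t B ∪ wn t u B := by
    rw [← un]; exact (filter_subset _ _).antisymm' b0
  refine ⟨ch, ?_, fun a k => ?_, fun η => ?_⟩
  · have g : ∀ x y, (∀ l ∈ F.ls, x ≤ l.lo → l.lo < y → ((∀ a ∈ B, a.Far l) ↔ ∀ a ∈ wn x y B, a.Far l)) →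
        {l ∈ wn x y F.ls | ∃ a ∈ B, ¬a.Far l} = {l ∈ wn x y F.ls | ∃ a ∈ wn x y B, ¬a.Far l} :=
      fun x y f => filter_congr fun l k => by
        have := f l (mem_wn.1 k).1 (mem_wn.1 k).2.1 (mem_wn.1 k).2.2
        simpa using not_congr this
    rw [un, filter_union, card_union_of_disjoint (disjoint_filter_filter (dj _)), g s t f1, g t u f2]
    conv_rhs => rw [eB, sum_union (dj B)]
    rw [sum_congr rfl fun a k => by rw [e1 a k], sum_congr (s₁ := wn t u B) rfl fun a k => by rw [e2 a k]]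
    push_cast; linarith
  · rcases mem_union.1 (eB ▸ k :) with k | k
    exacts [e1 a k ▸ q1 a k, e2 a k ▸ q2 a k]
  have L := rs_left (η := η) b0 b1
  have R := rs_right (η := η) b0 b1
  have iL : ∀ c, c ≤ t + 1 → (InV B η c ↔ InV (wn s t B) η c ∧ InV (wn t u B) η (t + 1)) :=
    fun c k => by simpa using inV_left b0 b1 k ∅
  have iR : ∀ c, t ≤ c → (InV B η c ↔ InV (wn t u B) η c ∧ InV (wn s t B) η t) :=
    fun c k => by simpa using inV_right b0 b1 k ∅
  have key : ∀ x x' x'' X X' : ℝ, (InV (wn t u B) η (t + 1) → dp (wn s t B) η s t x x' ≤ X) →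
      (InV (wn s t B) η t → dp (wn t u B) η t u x' x'' ≤ X') → dp B η s u x x'' ≤
      (if InV (wn t u B) η (t + 1) then X else 0) + if InV (wn s t B) η t then X' else 0 := by
    intro x x' x'' X X' k k'
    simp only [dp, iL (s + 1) (by omega), iR u h2] at k k' ⊢
    by_cases i : InV (wn t u B) η (t + 1) <;> by_cases j : InV (wn s t B) η t <;>
      simp only [i, j, if_true, if_false, and_true, and_false, true_imp_iff] at k k' ⊢ <;> linarith
  refine ⟨?_, ?_⟩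
  · rw [Ev_cut h1 h2, Ev_rs L e1 f1, Ev_rs R e2 f2]
    exact key _ _ _ _ _ (fun _ => (r1 η).1) fun _ => (r2 η).1
  by_cases g : F.HgW n B η s u
  · exact .inl g
  refine .inr fun n' tp lc => ?_
  have hE : ssum F.w B η s (ee z B η u) lq n' =
      (if InV (wn t u B) η (t + 1) then ssum F.w (wn s t B) η s (ee z (wn s t B) η t) lq n' else 0) +
      if InV (wn s t B) η t then ssum F.w (wn t u B) η t (ee z (wn t u B) η u) lq n' else 0 := by
    have a1 : t ≤ ee z B η u := by unfold ee; split_ifs <;> omega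
    have a2 : ee z B η u ≤ u := by unfold ee; split_ifs <;> omega
    rw [ssum_cut h1 a1, L.ssum, (R.mono le_rfl a2).ssum, show ee z (wn s t B) η t = t from
      if_neg (by omega)]
    congr 1
    split_ifs with j
    · simp only [ee, iR u h2, j, and_true]
    · rfl
  have := key v.2 v'.2 v''.2 _ _ (fun i => ((r1 η).2.resolve_left fun ⟨y, y1, y2, y3, y4, y5, y6⟩ =>
      g ⟨y, y1, by omega, y3, y4, y5, (iL _ (by omega)).2 ⟨y6, i⟩⟩) n' (tp.mono le_rfl h2)
      fun s' t' k1 k2 k3 k4 => by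
        have := lc s' t' k1 (by omega) k3 (.inr (k4.resolve_left (by omega)))
        rwa [(L.mono k1 k2).ssum, if_pos i] at this)
    fun j => ((r2 η).2.resolve_left fun ⟨y, y1, y2, y3, y4, y5, y6⟩ =>
      g ⟨y, by omega, y2, y3, y4, y5, (iR _ (by omega)).2 ⟨y6, j⟩⟩) n' (tp.mono h1 le_rfl)
      fun s' t' k1 k2 k3 k4 => by
        have := lc s' t' (by omega) k2 k3 (k4.imp_left fun k => ⟨k.1, fun m =>
          k.2 fun a ha => m a (mem_wn.1 ha).1⟩)
        rwa [(R.mono k1 k2).ssum, if_pos j] at this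
  rw [hE, Ev_cut h1 h2, Ev_rs L e1 f1, Ev_rs R e2 f2]
  split_ifs at this ⊢ <;> linarith

end Fm

end Crest.Agent.X212.Nm96
end
end

-- ▼ part X212/Nm96/Win2

/-!
# Row 212, layer G (helper96): `Win ⇒ NumC`, locality, ends on `Y₀`, facets
-/

set_option autoImplicit false
noncomputable section

namespace Crest.Agent.X212.Nm96

open Crest.Agent.X212.Rod53 Crest.Agent.X212.Wd38 Finset

variable {Γ : Nm} {a b : Bs} {c s t u : ℤ} {B σ σ' : Finset Bs} {η : Bs → Bool}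
  {w w' : Shp Γ} {φ ψ : Z2 → Z2 → ℤ → ℤ → ℝ} {n n' : Wt}

theorem irr_int {β sg l2 k : ℝ} {m h : ℕ} {g : ℤ} (hl : Lv sg l2 k) (hi : -1 ≤ dl β m h k)
    (hA : (g : ℝ) ≤ -3 / 4 * (β - 1) + (l2 - sg) / 2 + m / 4 - h / 2 + 13 / 4) :
    (g : ℝ) ≤ wg β sg l2 m h k := by
  obtain ⟨-, j, rfl⟩ := hl
  unfold wg; unfold dl at hi
  by_contra hn
  have h1 : 3 - 2 * j < g := by exact_mod_cast (by linarith : (3 : ℝ) - 2 * j < g)
  have h2 : g < 4 - 2 * j := by exact_mod_cast (by linarith : (g : ℝ) < 4 - 2 * j)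
  omega

theorem ssum_add : ssum w B η s t (fun u v x y => φ u v x y + ψ u v x y) n =
    ssum w B η s t φ n + ssum w B η s t ψ n := by
  simp only [ssum, mul_add, sum_add_distrib]; ring

theorem ssum_mul (r : ℝ) : ssum w B η s t (fun u v x y => r * φ u v x y) n = r * ssum w B η s t φ n := by
  simp only [ssum, mul_add, mul_sum, mul_left_comm r]

/-- `Λ² - σ` -/
def uu (u v : Z2) (x y : ℤ) : ℝ := lq u v x y - lg u v x y

theorem ssum_uu : ssum w B η s t uu n = ssum w B η s t lq n - ssum w B η s t lg n := by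
  rw [sub_eq_add_neg, ← neg_one_mul, ← ssum_mul, ← ssum_add]
  congr 1; funext u v x y; unfold uu; ring

theorem ssum_al : ssum w B η s t al n = -3 / 4 * ssum w B η s t lp n + ssum w B η s t uu n / 2 := by
  rw [div_eq_inv_mul _ (2 : ℝ), ← ssum_mul, ← ssum_mul, ← ssum_add]
  congr 1; funext u v x y; unfold al uu; ring

theorem ssum_om : ssum w B η s t om n = -3 * ssum w B η s t lp n + ssum w B η s t uu n / 2 := by
  rw [div_eq_inv_mul _ (2 : ℝ), ← ssum_mul, ← ssum_mul, ← ssum_add]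
  congr 1; funext u v x y; unfold om uu; ring

theorem ssum_of_le (h : t ≤ s) : ssum w B η s t φ n = 0 := by
  rw [ssum, sum_eq_zero, sum_eq_zero, add_zero] <;> intro a ha <;> have := (mem_filter.1 ha).2 <;> omega

theorem lp_indep (n' : Wt) : ssum w B η s t lp n = ssum w B η s t lp n' := rfl

/-! ### the shape of a piece -/

/-- well formed walls -/
def Wf (a : Bs) : Prop := a.lo ≤ a.hi ∧ (a.arc → a.lo < a.hi)

theorem wf_of_ok (h : a.OK w) : Wf a ∧ w.l ≤ a.lo ∧ a.hi ≤ w.r := by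
  cases a
  case sS x => exact ⟨⟨le_rfl, False.elim⟩, h.1, h.2.1.le⟩
  case yS x => exact ⟨⟨le_rfl, False.elim⟩, h.1, h.2.le⟩
  all_goals exact ⟨⟨h.1.lt.le, fun _ => h.1.lt⟩, h.1.lo, h.1.hi⟩

theorem side_ne (h : Wf a) (hc : c ≤ a.lo) : a.side c ≠ a.side (a.lo + 1) := by
  rw [Ne, Bool.eq_iff_iff]
  by_cases k : a.arc
  · have := h.2 k; rw [side_arc k, side_arc k]; omega
  · rw [(side_sl k).1, (side_sl k).1]; omega

theorem lo_ne (ha : Wf a) (hb : Wf b) (h : a.Far b) : a.lo < b.lo ∨ b.lo < a.lo := by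
  have := ha.1; have := hb.1; unfold Bs.Far at h; omega

theorem Adj.side (h : Adj B η a) (hb : b ∈ B) (e : b ≠ a) : b.side (a.lo + 1) = η b :=
  h b (mem_erase.2 ⟨e, hb⟩)

/-- laminar families -/
structure Lam (B : Finset Bs) : Prop where
  wf : ∀ a ∈ B, Wf a
  far : ∀ a ∈ B, ∀ b ∈ B, a ≠ b → a.Far b

theorem Lam.mono (h : Lam σ) (k : B ⊆ σ) : Lam B :=
  ⟨fun a x => h.wf a (k x), fun a x b y => h.far a (k x) b (k y)⟩

theorem Lam.uq (h : Lam B) (ha : a ∈ B) (hb : b ∈ B) (a1 : Adj B η a) (b1 : Adj B η b)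
    (a2 : a.side (a.lo + 1) = η a) (b2 : b.side (b.lo + 1) = η b) : a = b := by
  by_contra e
  rcases lo_ne (h.wf a ha) (h.wf b hb) (h.far a ha b hb e) with k | k
  · exact side_ne (h.wf b hb) k ((a1.side hb (Ne.symm e)).trans b2.symm)
  · exact side_ne (h.wf a ha) k ((b1.side ha e).trans a2.symm)

/-- the number of entry walls -/
def ent (B : Finset Bs) (η : Bs → Bool) (s t : ℤ) : ℝ :=
  asum B B η s t fun a => if a.side (a.lo + 1) = η a then 1 else 0

theorem ent_eq : ent B η s t =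
    #{a ∈ B | (s ≤ a.lo ∧ a.lo < t ∧ Adj B η a) ∧ a.side (a.lo + 1) = η a} := by
  rw [ent, asum, sum_boole, filter_filter]

theorem Lam.ent_le (h : Lam B) : ent B η s t ≤ 1 := by
  rw [ent_eq]
  exact_mod_cast card_le_one.2 fun a ha b hb => by
    have := mem_filter.1 ha; have := mem_filter.1 hb
    exact h.uq (η := η) (by tauto) (by tauto) (by tauto) (by tauto) (by tauto) (by tauto)

theorem Lam.chg_le (h : Lam B) {ch : Bs → Bool → ℤ} (hs : ∀ a ∈ B, Sz a (ch a)) {l r : ℤ}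
    (hr : ∀ a ∈ B, l ≤ a.lo ∧ a.hi < r) (hn : ∃ a ∈ B, Adj B η a) :
    ∑ a ∈ B with Adj B η a, ch a (η a) + (if InV B η l then 3 else 0) + (if InV B η r then 3 else 0) ≤ 4 := by
  by_cases h0 : ∃ a ∈ B, Adj B η a ∧ a.arc ∧ η a = false
  · obtain ⟨a, ha, a1, a2, a3⟩ := h0
    have a4 := (h.wf a ha).2 a2
    have a5 := hr a ha
    rw [if_neg fun k => by have := (side_arc a2).not.1 (by rw [k a ha, a3]; simp); omega,
      if_neg fun k => by have := (side_arc a2).not.1 (by rw [k a ha, a3]; simp); omega,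
      ← add_sum_erase _ _ (mem_filter.2 ⟨ha, a1⟩), a3]
    have := ((if_pos a2).mp (hs a ha)).1
    have : ∑ b ∈ {a ∈ B | Adj B η a}.erase a, ch b (η b) ≤ 0 := sum_nonpos fun b hb => by
      obtain ⟨e, hb⟩ := mem_erase.1 hb
      obtain ⟨hb, b1⟩ := mem_filter.1 hb
      by_cases k : b.arc
      · have b4 := (h.wf b hb).2 k
        have b5 := ((if_pos k).mp (hs b hb)).2
        cases b3 : η b
        · refine (e (h.uq hb ha b1 a1 ?_ ?_)).elim
          · rw [b3, ← Bool.not_eq_true, side_arc k]; omega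
          · rw [a3, ← Bool.not_eq_true, side_arc a2]; omega
        · omega
      · have b2 := (side_arc a2).not.1 (by rw [b1.side ha (Ne.symm e), a3]; simp)
        have b3 := (side_sl (c := 0) k).2
        have b4 := h.far b hb a ha e
        unfold Bs.Far at b4
        have : ¬(b.hi < a.lo ∨ a.hi < b.lo) := by omega
        tauto
    linarith
  have e : ∑ a ∈ B with Adj B η a, ch a (η a) ≤ -2 * #{a ∈ B | Adj B η a ∧ a.arc} +
      #{a ∈ B | Adj B η a ∧ ¬a.arc ∧ η a = true} + #{a ∈ B | Adj B η a ∧ ¬a.arc ∧ η a = false} := by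
    simp only [card_filter, sum_filter, Nat.cast_sum, mul_sum, ← sum_add_distrib]
    refine sum_le_sum fun a ha => ?_
    have := hs a ha
    unfold Sz at this
    by_cases k : Adj B η a <;> by_cases k' : a.arc <;> cases k'' : η a <;> simp_all
  have e1 : #{a ∈ B | Adj B η a ∧ ¬a.arc ∧ η a = true} ≤ if InV B η l then 0 else 1 := by
    split_ifs with k
    · refine (card_eq_zero.2 (filter_eq_empty_iff.2 fun a ha g => ?_)).le
      have := (side_sl g.2.1).1.1 ((k a ha).trans g.2.2); have := hr a ha; omega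
    · refine card_le_one.2 fun a ha b hb => ?_
      obtain ⟨ha, a1, a2, a3⟩ := mem_filter.1 ha
      obtain ⟨hb, b1, b2, b3⟩ := mem_filter.1 hb
      exact h.uq ha hb a1 b1 (by rw [a3, (side_sl a2).1]; omega) (by rw [b3, (side_sl b2).1]; omega)
  have e2 : #{a ∈ B | Adj B η a ∧ ¬a.arc ∧ η a = false} ≤ if InV B η r then 0 else 1 := by
    split_ifs with k
    · refine (card_eq_zero.2 (filter_eq_empty_iff.2 fun a ha g => ?_)).le
      have := (side_sl g.2.1).1.not.1 (by rw [k a ha, g.2.2]; simp)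
      have := hr a ha; have := (h.wf a ha).1; omega
    · refine card_le_one.2 fun a ha b hb => ?_
      obtain ⟨ha, a1, a2, a3⟩ := mem_filter.1 ha
      obtain ⟨hb, b1, b2, b3⟩ := mem_filter.1 hb
      by_contra e
      rcases lo_ne (h.wf a ha) (h.wf b hb) (h.far a ha b hb e) with k | k
      · have := (side_sl a2).1.not.1 (by rw [b1.side ha e, a3]; simp); omega
      · have := (side_sl b2).1.not.1 (by rw [a1.side hb (Ne.symm e), b3]; simp); omega
  have e3 : 1 ≤ #{a ∈ B | Adj B η a ∧ a.arc} + #{a ∈ B | Adj B η a ∧ ¬a.arc ∧ η a = true} +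
      #{a ∈ B | Adj B η a ∧ ¬a.arc ∧ η a = false} := by
    obtain ⟨a, ha, a1⟩ := hn
    by_cases k : a.arc
    · have := card_pos.2 ⟨a, (mem_filter.2 ⟨ha, a1, k⟩ : a ∈ {a ∈ B | Adj B η a ∧ a.arc})⟩; omega
    cases k' : η a
    · have := card_pos.2 ⟨a, (mem_filter.2 ⟨ha, a1, k, k'⟩ :
        a ∈ {a ∈ B | Adj B η a ∧ ¬a.arc ∧ η a = false})⟩; omega
    · have := card_pos.2 ⟨a, (mem_filter.2 ⟨ha, a1, k, k'⟩ :
        a ∈ {a ∈ B | Adj B η a ∧ ¬a.arc ∧ η a = true})⟩; omega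
  split_ifs at e1 e2 ⊢ <;> omega

theorem Lam.exists_ent (h : Lam B) (hs : ∀ a ∈ B, s < a.lo) (hc : s < c) (k : InV B η c) :
    InV B η (s + 1) ∨ ∃ a ∈ B, a.lo < c ∧ Adj B η a ∧ a.side (a.lo + 1) = η a := by
  induction' e : (c - s).toNat using Nat.strong_induction_on with N ih generalizing c
  rcases (show c = s + 1 ∨ s + 1 < c by omega) with rfl | h1
  · exact .inl k
  have IH : ∀ c', s < c' → c' < c → InV B η c' → _ := fun c' p q r =>
    (ih _ (by omega) p r rfl).imp_right fun ⟨a, x, y, z⟩ => (⟨a, x, y.trans q, z⟩ :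
      ∃ a ∈ B, a.lo < c ∧ Adj B η a ∧ a.side (a.lo + 1) = η a)
  by_cases h2 : InV B η (c - 1)
  · exact IH _ (by omega) (by omega) h2
  obtain ⟨a, ha, h3⟩ : ∃ a ∈ B, a.side (c - 1) ≠ η a := by simpa [InV] using h2
  by_cases h4 : c = a.lo + 1
  · exact .inr ⟨a, ha, by omega, fun b hb => h4 ▸ k b (mem_erase.1 hb).2, h4 ▸ k a ha⟩
  rw [← k a ha, Ne, Bool.eq_iff_iff] at h3
  have a1 : a.arc := by_contra fun i => by rw [(side_sl i).1, (side_sl i).1] at h3; omega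
  rw [side_arc a1, side_arc a1] at h3
  have a2 := (h.wf a ha).1
  refine IH a.lo (hs a ha) (by omega) fun b hb => ?_
  rw [← k b hb, Bool.eq_iff_iff]
  by_cases i : b = a
  · rw [i, side_arc a1, side_arc a1]; omega
  have b1 := h.far b hb a ha i
  have b2 := (h.wf b hb).1
  unfold Bs.Far at b1
  by_cases j : b.arc
  · rw [side_arc j, side_arc j]; omega
  · have := (side_sl (c := 0) j).2
    rw [(side_sl j).1, (side_sl j).1]
    simp only [j, false_and, and_false, or_false] at b1; omega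

namespace Fm

variable {P : Pm Γ} {F F' : Fm Γ} {z : ℤ} {δ μ e : ℝ} {ch : Bs → Bool → ℤ} {v v' : ℝ × ℝ}

theorem Ev_eq : F.Ev n σ B η ch φ μ e s t = ssum F.w B η s t φ n + asum (σ \ B) B η s t (fun _ => μ) +
    asum F.ls B η s t (fun l => if ∀ a ∈ B, a.Far l then -2 * μ else 0) + e * ent B η s t -
    asum B B η s t fun a => ch a (η a) := by
  simp only [Ev, ent, asum, sum_sub_distrib, mul_sum, mul_ite, mul_one, mul_zero]; ring

theorem Ev_top (hB : B ⊆ σ) (hσ : ∀ a ∈ σ ∪ F.ls, s ≤ a.lo ∧ a.lo < t) :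
    F.Ev n σ B η ch φ μ e s t = ssum F.w B η s t φ n + μ * nm σ B η - 2 * μ * F.nh B η +
      e * ent B η s t - (∑ a ∈ B with Adj B η a, ch a (η a) : ℤ) := by
  have k : ∀ U ⊆ σ ∪ F.ls, ∀ f, asum U B η s t f = ∑ a ∈ U with Adj B η a, f a := fun U hU f =>
    sum_congr (filter_congr fun a ha => by have := hσ a (hU ha); tauto) fun _ _ => rfl
  rw [Ev_eq, k _ (sdiff_subset.trans subset_union_left), k _ subset_union_right,
    k B (hB.trans subset_union_left), ← sum_filter, filter_filter]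
  simp only [sum_const, nsmul_eq_mul, nm, nh, Int.cast_sum, and_comm (a := Adj B η _)]
  ring

/-- **the certificate gives the numerical hypothesis** -/
theorem Win.numC (h : F.Win z δ n σ (F.w.l - 1) (F.w.r + 1) v v') (h0 : 0 ≤ δ) (h1 : δ ≤ 1)
    (ok : ∀ a ∈ σ, a.OK F.w) (far : ∀ a ∈ σ, ∀ b ∈ σ, a ≠ b → a.Far b)
    (hl : ∀ l ∈ F.ls, F.w.l ≤ l.lo ∧ l.lo ≤ F.w.r) (hz : z = F.w.l - 1 ∨ F.Cut z) (hr : z ≤ F.w.r)
    (m1 : 15 / 4 - P.M ≤ v'.1) (m2 : 9 - P.M ≤ v'.2) : F.NumC P n σ := fun B hB hp _ => by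
  have hσ : ∀ a ∈ σ ∪ F.ls, F.w.l - 1 ≤ a.lo ∧ a.lo < F.w.r + 1 := fun a ha => by
    rcases mem_union.1 ha with k | k
    · have := wf_of_ok (ok a k); have := this.1.1; omega
    · have := hl a k; omega
  have lam : Lam B := Lam.mono ⟨fun a k => (wf_of_ok (ok a k)).1, far⟩ hB
  obtain ⟨ch, k1, k2, k3⟩ := h B (fun a k => mem_wn.2 ⟨hB k, hσ a (mem_union_left _ (hB k))⟩) hp
  rw [show wn _ _ F.ls = F.ls from filter_true_of_mem fun a k => hσ a (mem_union_right _ k)] at k1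
  refine ⟨fun a b => ch a b, 3, 3, ?_, fun η hη => ⟨?_, ?_⟩⟩
  · have : 2 * (F.nd B : ℝ) ≤ ∑ a ∈ B, ((ch a true : ℝ) + ch a false) := by exact_mod_cast k1
    linarith
  · have := lam.chg_le k2 (l := F.w.l) (r := F.w.r + 1)
      (fun a k => by have := wf_of_ok (ok a (hB k)); omega) hη
    have : ((_ : ℤ) : ℝ) ≤ (4 : ℤ) := Int.cast_le.2 this
    simp only [Int.cast_add, Int.cast_sum, Int.cast_ite, Int.cast_ofNat, Int.cast_zero] at this
    unfold chg Fst Lst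
    convert this
  by_cases f : F.Fst B η
  · exact .inl f
  obtain ⟨i1, i2⟩ := k3 η
  have en := lam.ent_le (η := η) (s := F.w.l - 1) (t := F.w.r + 1)
  have f' : ¬InV B η (F.w.l - 1 + 1) := by rwa [sub_add_cancel]
  have tp : ∀ {n' k}, F.AbC n B η n' k → Tp F.w n n' (F.w.l - 1) (F.w.r + 1) ∧
      F.Loc n' B η (F.w.l - 1) (F.w.r + 1) := fun A =>
    ⟨⟨fun j τ _ _ => A.tok.rod j τ, fun j _ _ => A.tok.eq j, fun j _ _ => A.tok.neg j,
      fun j _ _ => A.par.l j, fun j _ _ => A.par.r j⟩, fun s t _ _ => A.loc s t⟩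
  have hg : F.HgW n B η (F.w.l - 1) (F.w.r + 1) → F.Hg n B η := fun ⟨y, _, _, y1, y2, y3, y4⟩ =>
    ⟨y, y1, y2, y3, fun a k => y4 a (mem_erase.1 k).2⟩
  rw [Ev_top hB hσ, ssum_al, ssum_uu] at i1
  simp only [Ev_top hB hσ, ssum_om, ssum_uu] at i2
  have e1 : (13 - δ) / 4 * ent B η (F.w.l - 1) (F.w.r + 1) ≤ 13 / 4 := by nlinarith
  have e2 : (1 - δ) * ent B η (F.w.l - 1) (F.w.r + 1) ≤ 1 := by nlinarith
  by_cases g : F.Lst B η
  · have g' : InV B η (F.w.r + 1) := g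
    simp only [dp, if_true, if_neg f', ee, g', and_true, if_pos (show z < F.w.r + 1 by omega)] at i1 i2
    have c1 : F.chg B η (fun a b => ch a b) 3 3 = (∑ a ∈ B with Adj B η a, ch a (η a) : ℤ) + 3 := by
      simp [chg, f, g]
    refine .inr (.inr ⟨g, fun k hk => ?_, i2.imp hg fun i2 n' k A => ?_⟩) <;> rw [c1]
    · simp only [wt, ix, wg, dl, tot] at hk ⊢; linarith
    · have := i2 n' (tp A).1 (tp A).2
      have : -ssum F.w B η (F.w.l - 1) z lq n' / 4 - 1 ≤ k := hz.elim (fun e => by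
        rw [e, ssum_self]; linarith [A.pos]) (A.levc z)
      simp only [wt, wg, tot]; linarith
  · have g' : ¬InV B η (F.w.r + 1) := g
    simp only [dp, if_neg f', ee, g', and_false, if_false] at i1 i2
    have c1 : F.chg B η (fun a b => ch a b) 3 3 = (∑ a ∈ B with Adj B η a, ch a (η a) : ℤ) := by
      simp [chg, f, g]
    refine .inr (.inl ⟨g, fun k hk hk' => ?_, i2.imp hg fun i2 n' k A _ => ?_⟩) <;> rw [c1]
    · exact irr_int hk hk' (by simp only [tot]; linarith)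
    · have := i2 n' (tp A).1 (tp A).2
      rw [wt, wg, A.lev g]; simp only [tot]; linarith

/-! ### locality -/

/-- the same slots and orders on a window -/
structure Sm (F F' : Fm Γ) (n n' : Wt) (s t : ℤ) : Prop where
  l : F'.w.l = F.w.l
  r : F'.w.r = F.w.r
  s' : ∀ j, s ≤ j → j ≤ t → F'.w.s j = F.w.s j
  nl : ∀ j, s ≤ j → j ≤ t → n'.nl j = n.nl j
  nr : ∀ j, s ≤ j → j ≤ t → n'.nr j = n.nr j
  ls : wn s t F'.ls = wn s t F.ls
  fz : ∀ y, s ≤ y → y ≤ t → .yS y ∈ F.fz → .yS y ∈ F'.fz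

theorem Sm.ssum (h : Sm F F' n n' s t) (hB : ∀ a ∈ B, s ≤ a.hi ∧ a.hi ≤ t) {s' t' : ℤ} (h1 : s ≤ s')
    (h2 : t' ≤ t) : ssum F'.w B η s' t' φ n' = ssum F.w B η s' t' φ n := by
  simp only [Nm96.ssum, h.l, h.r]
  congr 1 <;> refine sum_congr rfl fun c hc => ?_ <;> have k := mem_filter.1 hc
  · rw [Shp.lf, Shp.rt, h.s' _ (by omega) (by omega), h.s' c (by omega) (by omega),
      h.nr _ (by omega) (by omega), h.nl _ (by omega) (by omega)]; rfl
  · have := hB c k.1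
    rw [h.s' _ (by omega) (by omega), h.s' c.hi (by omega) (by omega),
      h.nr _ (by omega) (by omega), h.nl _ (by omega) (by omega)]

theorem asum_wn {U : Finset Bs} {f : Bs → ℝ} : asum U B η s t f = asum (wn s t U) B η s t f := by
  rw [asum, asum, wn, filter_filter]
  exact sum_congr (filter_congr fun _ _ => by tauto) fun _ _ => rfl

theorem Win.congr (h : F.Win z δ n σ s t v v') (m : Sm F F' n n' s t) (e : wn s t σ' = wn s t σ)
    (hσ : ∀ a ∈ wn s t σ, s ≤ a.hi ∧ a.hi ≤ t) : F'.Win z δ n' σ' s t v v' := fun B hB hp => by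
  rw [e] at hB
  obtain ⟨ch, k1, k2, k3⟩ := h B hB hp
  have hb : ∀ a ∈ B, s ≤ a.hi ∧ a.hi ≤ t := fun a k => hσ a (hB k)
  have ev : ∀ η φ μ x, F'.Ev n' σ' B η ch φ μ x s t = F.Ev n σ B η ch φ μ x s t := fun η φ μ x => by
    have : wn s t (σ' \ B) = wn s t (σ \ B) := Finset.ext fun a => by
      have := Finset.ext_iff.1 e a
      simp only [mem_wn, mem_sdiff] at this ⊢; tauto
    rw [Ev, Ev, m.ssum hb le_rfl le_rfl, asum_wn, this, ← asum_wn, asum_wn (U := F'.ls), m.ls, ← asum_wn]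
  refine ⟨ch, m.ls ▸ k1, k2, fun η => ⟨ev .. ▸ (k3 η).1, (k3 η).2.imp ?_ fun k n'' tp lc => ?_⟩⟩
  · rintro ⟨y, y1, y2, y3, y4, y5, y6⟩
    exact ⟨y, y1, y2, m.fz y y1 y2 y3, m.s' y y1 y2 ▸ y4, m.nr y y1 y2 ▸ y5, y6⟩
  have m' : Sm F F' n'' n'' s t := ⟨m.l, m.r, m.s', fun _ _ _ => rfl, fun _ _ _ => rfl, m.ls, m.fz⟩
  have cut : ∀ y, s ≤ y → y ≤ t → F.Cut y → F'.Cut y := fun y a b k =>
    ⟨m.fz y a b k.1, m.s' y a b ▸ k.2⟩
  rw [ev, m'.ssum hb le_rfl (by unfold ee; split_ifs <;> omega)]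
  refine k n'' ⟨fun j τ a b => ?_, fun j a b => ?_, fun j a b => ?_, fun j a b => ?_, fun j a b => ?_⟩
    fun s' t' a b x y => ?_
  · simpa only [m.l, m.r, m.s' j a.le b.le] using tp.rod j τ a b
  · simpa only [m.l, m.r, Shp.lf, Shp.rt, m.s' j a.le b, m.s' (j - 1) (by omega) (by omega)]
      using tp.eq j a b
  · simpa only [m.l, m.r, Shp.lf, Shp.rt, m.s' j a.le b, m.s' (j - 1) (by omega) (by omega)]
      using tp.neg j a b
  · simpa only [m.l, m.r, m.s' j a.le b, m.nl j a.le b] using tp.l j a b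
  · simpa only [m.l, m.r, m.s' j a b.le, m.nr j a b.le] using tp.r j a b
  · by_cases i : t' ≤ s'
    · exact (ssum_of_le i).le
    rw [← m'.ssum hb a b]
    exact lc s' t' a b (x.imp (m.l ▸ ·) (cut s' a (by omega)))
      (y.imp (by simp only [Lst, m.r]; exact id) (cut t' (by omega) b))

/-! ### ends on a frozen `Y₀`, facets -/

variable (F) in
/-- a frozen `Y₀` with an odd order -/
def Y0 (n : Wt) (y : ℤ) : Prop := .yS y ∈ F.fz ∧ (F.w.s y).r.2.2 = 0 ∧ Odd (n.nr y)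

theorem Win.hgL (h : F.Win z δ n σ s t v v') (hs : F.Y0 n s) (hst : s ≤ t) (x : ℝ) :
    F.Win z δ n σ s t (v.1, x) v' := fun B hB hp => by
  obtain ⟨ch, k1, k2, k3⟩ := h B hB hp
  refine ⟨ch, k1, k2, fun η => ⟨(k3 η).1, ?_⟩⟩
  by_cases i : InV B η (s + 1)
  · exact .inl ⟨s, le_rfl, hst, hs.1, hs.2.1, hs.2.2, i⟩
  · simpa only [dp, if_neg i] using (k3 η).2

theorem Win.hgR (h : F.Win z δ n σ s t v v') (ht : F.Y0 n t) (hst : s ≤ t)
    (hσ : ∀ a ∈ wn s t σ, a.hi < t) (x : ℝ) : F.Win z δ n σ s t v (v'.1, x) := fun B hB hp => by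
  obtain ⟨ch, k1, k2, k3⟩ := h B hB hp
  refine ⟨ch, k1, k2, fun η => ⟨(k3 η).1, ?_⟩⟩
  by_cases i : InV B η t
  · exact .inl ⟨t, hst, le_rfl, ht.1, ht.2.1, ht.2.2, fun a k => by
      have := hσ a (hB k)
      rw [← i a k, side_of_gt this, side_of_gt (by omega)]⟩
  · simpa only [dp, if_neg i] using (k3 η).2

theorem Win.erase (h : F.Win z 1 n σ s t v v') (lam : Lam σ) (hs : ∀ a ∈ wn s t σ, s < a.lo) (a : Bs) :
    F.Win z 0 n (σ.erase a) s t (v + (1 / 4, 1)) v' := fun B hB hp => by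
  have hB' : B ⊆ wn s t σ := fun b k => mem_wn.2 ((mem_wn.1 (hB k)).imp_left mem_of_mem_erase)
  obtain ⟨ch, k1, k2, k3⟩ := h B hB' hp
  have key : ∀ η φ (μ x x' y y' C : ℝ), 0 ≤ μ → x' = x + μ → dp B η s t y y' ≤ C + F.Ev n σ B η ch φ μ x s t →
      dp B η s t (y + μ) y' ≤ C + F.Ev n (σ.erase a) B η ch φ μ x' s t := fun η φ μ x x' y y' C h0 hx h1 => by
    have e0 : 0 ≤ ent B η s t := ent_eq (B := B) ▸ Nat.cast_nonneg _
    have e1 : asum (σ \ B) B η s t (fun _ => μ) ≤ asum (σ.erase a \ B) B η s t (fun _ => μ) +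
        μ * (ent B η s t + if InV B η (s + 1) then 1 else 0) := by
      by_cases i : a ∈ σ \ B ∧ s ≤ a.lo ∧ a.lo < t ∧ Adj B η a
      · rw [asum, ← add_sum_erase _ _ (mem_filter.2 i), ← filter_erase, ← erase_sdiff_comm, add_comm]
        refine add_le_add le_rfl (le_mul_of_one_le_right h0 ?_)
        have i4 := i.2.2.2
        rw [Adj, erase_eq_of_notMem (mem_sdiff.1 i.1).2] at i4
        rcases (lam.mono fun b k => (mem_wn.1 (hB' k)).1).exists_ent (fun b k => hs b (hB' k))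
          (by omega) i4 with j | ⟨b, b1, b2, b3, b4⟩
        · rw [if_pos j]; linarith
        · have : 1 ≤ ent B η s t := by
            rw [ent_eq]
            exact Nat.one_le_cast.2 (card_pos.2
              ⟨b, mem_filter.2 ⟨b1, ⟨(mem_wn.1 (hB' b1)).2.1, by omega, b3⟩, b4⟩⟩)
          split_ifs <;> linarith
      · rw [asum, asum, erase_sdiff_comm, filter_erase, erase_eq_of_notMem fun k => i (mem_filter.1 k)]
        exact le_add_of_nonneg_right (mul_nonneg h0 (by split_ifs <;> linarith))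
    simp only [Ev_eq, dp, hx] at h1 ⊢
    split_ifs at e1 h1 ⊢ <;> linarith
  refine ⟨ch, k1, k2, fun η => ⟨?_, (k3 η).2.imp_right fun k n' p q => ?_⟩⟩
  · exact (key η al (1 / 4) _ _ _ _ 0 (by norm_num) (by norm_num)
      ((k3 η).1.trans (zero_add _).ge)).trans (zero_add _).le
  · exact key η om 1 _ _ _ _ _ (by norm_num) (by norm_num) (k n' p q)

theorem Win.delta {δ' : ℝ} (h : F.Win z δ n σ s t v v') (hδ : δ' ≤ δ) : F.Win z δ' n σ s t v v' :=
  fun B hB hp => by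
  obtain ⟨ch, k1, k2, k3⟩ := h B hB hp
  have e0 : ∀ η, 0 ≤ ent B η s t := fun η => ent_eq (B := B) ▸ Nat.cast_nonneg _
  refine ⟨ch, k1, k2, fun η => ⟨(k3 η).1.trans ?_, (k3 η).2.imp_right fun k n' p q => (k n' p q).trans ?_⟩⟩ <;>
    simp only [Ev_eq] <;> nlinarith [e0 η]

end Fm

end Crest.Agent.X212.Nm96
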